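import Vale.Agent.P155.SW801.Defs

/-!
# P155, SW: `KK Ω K s` is closed when the holes are locally finite
-/

namespace Vale.Agent.P155.SW905

open Vale.Agent.P155 Vale.Agent.P155.Q1 Metric

theorem isHole_subset {Ω s U : Set ℂ} (h : IsHole Ω s U) : U ⊆ Ω := by
  obtain ⟨z, hz, rfl⟩ := h
  exact (connectedComponentIn_subset _ _).trans Set.diff_subset

theorem KK_closed {Ω K s : Set ℂ} (hK : IsClosed K)
    (hfin : ∀ ε : ℝ, 0 < ε → {U | IsHole Ω s U ∧ ε < Metric.diam U}.Finite)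
    (hb : Bornology.IsBounded Ω) : IsClosed (SWR.KK Ω K s) := by
  rw [← isOpen_compl_iff, Metric.isOpen_iff]
  intro p hp
  have hpK : p ∉ K := fun h => hp (Or.inl h)
  rcases K.eq_empty_or_nonempty with hKe | hKne
  · subst hKe
    refine ⟨1, one_pos, ?_⟩
    rintro q - (hq | ⟨C, ⟨U, _, hne, _⟩, _⟩)
    · exact hq
    · simp at hne
  have hε : 0 < infDist p K := (hK.notMem_iff_infDist_pos hKne).1 hpK
  obtain ⟨ε, hεd⟩ : ∃ ε, ε = infDist p K := ⟨_, rfl⟩
  rw [← hεd] at hε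
  have hF := hfin (ε / 4) (by positivity)
  -- the large holes touching `K`
  obtain ⟨F, hFd⟩ : ∃ F : Set (Set ℂ), F = {U | (IsHole Ω s U ∧ ε / 4 < Metric.diam U) ∧
    (closure U ∩ K).Nonempty} := ⟨_, rfl⟩
  have hFf : F.Finite := by
    rw [hFd]
    exact hF.subset fun U hU => hU.1
  have hCl : IsClosed (⋃ U ∈ F, closure U) := hFf.isClosed_biUnion fun U _ => isClosed_closure
  have hpC : p ∉ ⋃ U ∈ F, closure U := by
    intro h
    simp only [Set.mem_iUnion] at h
    obtain ⟨U, hU, hpU⟩ := h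
    rw [hFd] at hU
    exact hp (Or.inr ⟨closure U, ⟨U, hU.1.1, hU.2, rfl⟩, hpU⟩)
  obtain ⟨r, hr, hball⟩ := Metric.isOpen_iff.1 hCl.isOpen_compl p hpC
  refine ⟨min r (ε / 4), lt_min hr (by positivity), ?_⟩
  intro q hq hqK
  have hq1 : dist q p < r := lt_of_lt_of_le (mem_ball.1 hq) (min_le_left _ _)
  have hq2 : dist q p < ε / 4 := lt_of_lt_of_le (mem_ball.1 hq) (min_le_right _ _)
  rcases hqK with hqK | ⟨C, ⟨U, hU, hne, rfl⟩, hqU⟩
  · have := infDist_le_dist_of_mem (x := p) hqK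
    rw [← hεd, dist_comm] at this
    linarith
  · obtain ⟨k, hkU, hkK⟩ := hne
    have h1 : ε ≤ dist p k := by
      rw [hεd]
      exact infDist_le_dist_of_mem hkK
    have h2 : dist p k ≤ dist p q + dist q k := dist_triangle _ _ _
    have hbU : Bornology.IsBounded (closure U) := (hb.subset (isHole_subset hU)).closure
    have h3 : dist q k ≤ diam (closure U) := dist_le_diam_of_mem hbU hqU hkU
    rw [Metric.diam_closure] at h3
    rw [dist_comm] at hq2
    have h4 : ε / 4 < diam U := by linarith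
    refine hball (mem_ball.2 hq1) ?_
    simp only [Set.mem_iUnion]
    refine ⟨U, ?_, hqU⟩
    rw [hFd]
    exact ⟨⟨hU, h4⟩, k, hkU, hkK⟩

end Vale.Agent.P155.SW905
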