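import Vale.Agent.P155.L.Cycle

/-!
# P155, SW, block 2: what is explored from a vertex set `S` is not changed inside `B`

`AgreeOff (outside X B ω) ω ω'` (`ω'` is obtained from `ω` by a change inside `B`): if `S` does not
meet `B` and no loop of `ω` through `S` meets `B`, then the loops through `S`, their signs and the
faces which they surround are the same for `ω` and `ω'`.
-/

namespace Vale.Agent.P155.SW905

open Vale.Agent.P155

/-- `ω` and `ω'` have the same partners at every point off `B`. -/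
def Eqv (B : Set Pt) (ω ω' : Conf) : Prop := ∀ v, v ∉ B → ω'.1 v = ω.1 v ∧ ω'.2 v = ω.2 v

/-- the loops through a vertex set -/
def LS (S : Set Pt) (ω : Conf) : Set (Set Pt) := {L | L ∈ Loops ω ∧ ∃ s ∈ S, s ∈ L}

/-- the faces surrounded by the loops through `S` -/
def FS (S : Set Pt) (ω : Conf) : Set Pt := {f | ∃ L ∈ LS S ω, surr ω L f}

/-- nothing explored from `S` meets `B` -/
def Free (S B : Set Pt) (ω : Conf) : Prop := (∀ s ∈ S, s ∉ B) ∧ ∀ L ∈ LS S ω, ∀ v ∈ L, v ∉ B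

theorem Eqv.symm {B : Set Pt} {ω ω' : Conf} (h : Eqv B ω ω') : Eqv B ω' ω :=
  fun v hv => ⟨(h v hv).1.symm, (h v hv).2.symm⟩

theorem eqv_of_agree {X : Expl} {B : Set Pt} {ω ω' : Conf}
    (h : AgreeOff (outside X B ω) ω ω') : Eqv B ω ω' :=
  fun v hv => ⟨h.1 v fun h' => hv h'.2.1, h.2 v fun h' => hv h'.2.1⟩

theorem Eqv.mono {B B' : Set Pt} {ω ω' : Conf} (h : Eqv B ω ω') (hB : B ⊆ B') : Eqv B' ω ω' :=
  fun v hv => h v fun h' => hv (hB h')

theorem comp_sub {B : Set Pt} {ω ω' : Conf} (h : Eqv B ω ω') {v : Pt}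
    (hd : ∀ x ∈ comp ω v, x ∉ B) : comp ω' v ⊆ comp ω v := by
  intro u hu
  induction hu with
  | refl => exact Relation.ReflTransGen.refl
  | @tail b c _ hstep ih =>
    have hb : b ∉ B := hd b ih
    rcases hstep with hc | hc
    · exact Relation.ReflTransGen.tail ih (Or.inl (by rw [hc, (h b hb).1]))
    · exact Relation.ReflTransGen.tail ih (Or.inr (by rw [hc, (h b hb).2]))

theorem comp_sub' {B : Set Pt} {ω ω' : Conf} (h : Eqv B ω ω') {v : Pt}
    (hd : ∀ x ∈ comp ω v, x ∉ B) : comp ω v ⊆ comp ω' v := by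
  intro u hu
  have key : Same ω v u → Same ω' v u := by
    intro hs
    induction hs with
    | refl => exact Relation.ReflTransGen.refl
    | @tail b c hs' hstep ih =>
      have hb : b ∉ B := hd b hs'
      have ihb : Same ω' v b := ih hs'
      rcases hstep with hc | hc
      · exact Relation.ReflTransGen.tail ihb (Or.inl (by rw [hc, (h b hb).1]))
      · exact Relation.ReflTransGen.tail ihb (Or.inr (by rw [hc, (h b hb).2]))
  exact key hu

theorem comp_eq {B : Set Pt} {ω ω' : Conf} (h : Eqv B ω ω') {v : Pt}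
    (hd : ∀ x ∈ comp ω v, x ∉ B) : comp ω' v = comp ω v :=
  (comp_sub h hd).antisymm (comp_sub' h hd)

/-- a loop of `ω` avoiding `B` is a loop of `ω'` -/
theorem loop_of {B : Set Pt} {ω ω' : Conf} (h : Eqv B ω ω') {L : Set Pt} (hL : L ∈ Loops ω)
    (hd : ∀ v ∈ L, v ∉ B) : L ∈ Loops ω' := by
  obtain ⟨v, hv, rfl⟩ := hL
  have hvB : v ∉ B := hd v Relation.ReflTransGen.refl
  refine ⟨v, ?_, (comp_eq h hd).symm⟩
  rw [(h v hvB).1, (h v hvB).2]
  exact hv

theorem vedgeL_iff {B : Set Pt} {ω ω' : Conf} (h : Eqv B ω ω') {L : Set Pt}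
    (hd : ∀ v ∈ L, v ∉ B) (j y : ℤ) : vedgeL ω' L j y ↔ vedgeL ω L j y := by
  unfold vedgeL
  constructor
  · rintro ⟨h1, h2⟩
    have := h _ (hd _ h1)
    rw [this.1, this.2] at h2
    exact ⟨h1, h2⟩
  · rintro ⟨h1, h2⟩
    have := h _ (hd _ h1)
    refine ⟨h1, ?_⟩
    rw [this.1, this.2]
    exact h2

theorem surr_iff {B : Set Pt} {ω ω' : Conf} (h : Eqv B ω ω') {L : Set Pt}
    (hd : ∀ v ∈ L, v ∉ B) (f : Pt) : surr ω' L f ↔ surr ω L f := by
  unfold surr
  simp only [vedgeL_iff h hd]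

theorem dh_eq {B : Set Pt} {ω ω' : Conf} (h : Eqv B ω ω') {j y : ℤ} (hj : (j, y) ∉ B) :
    dh ω' j y = dh ω j y := by
  unfold dh
  rw [(h _ hj).1, (h _ hj).2]

theorem hL_eq {B : Set Pt} {ω ω' : Conf} (h : Eqv B ω ω') {L : Set Pt}
    (hd : ∀ v ∈ L, v ∉ B) (f : Pt) : hL ω' L f = hL ω L f := by
  unfold hL
  refine finsum_congr fun j => ?_
  refine finsum_congr fun hj => ?_
  exact dh_eq h (hd _ hj.2)

/-- under `Free`, a change inside `B` produces no new loop through `S` -/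
theorem LS_eq {V : Finset Pt} {S B : Set Pt} {ω ω' : Conf} (hω' : ω' ∈ DD V)
    (hf : Free S B ω) (h : Eqv B ω ω') : LS S ω' = LS S ω := by
  ext L
  constructor
  · rintro ⟨hL, s, hs, hsL⟩
    have hsB : s ∉ B := hf.1 s hs
    have hne' : ω'.1 s ≠ ω'.2 s := Vale.Agent.P155.L.loop_ne hω' hL hsL
    have hne : ω.1 s ≠ ω.2 s := by rwa [(h s hsB).1, (h s hsB).2] at hne'
    have hm : comp ω s ∈ LS S ω := ⟨⟨s, hne, rfl⟩, s, hs, Relation.ReflTransGen.refl⟩
    have he : comp ω' s = comp ω s := comp_eq h (hf.2 _ hm)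
    have hL' : L = comp ω s := by rw [Vale.Agent.P155.L.loop_eq_comp hω' hL hsL, he]
    rw [hL']
    exact hm
  · rintro ⟨hL, s, hs, hsL⟩
    exact ⟨loop_of h hL (hf.2 L ⟨hL, s, hs, hsL⟩), s, hs, hsL⟩

/-- the surrounded faces are the same -/
theorem FS_eq {V : Finset Pt} {S B : Set Pt} {ω ω' : Conf} (hω' : ω' ∈ DD V)
    (hf : Free S B ω) (h : Eqv B ω ω') : FS S ω' = FS S ω := by
  ext f
  unfold FS
  rw [LS_eq hω' hf h]
  constructor
  · rintro ⟨L, hL, hs⟩
    exact ⟨L, hL, (surr_iff h (hf.2 L hL) f).1 hs⟩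
  · rintro ⟨L, hL, hs⟩
    exact ⟨L, hL, (surr_iff h (hf.2 L hL) f).2 hs⟩

/-- the property `Free` is itself invariant -/
theorem free_iff {V : Finset Pt} {S B : Set Pt} {ω ω' : Conf} (hω : ω ∈ DD V) (hω' : ω' ∈ DD V)
    (h : Eqv B ω ω') : Free S B ω' ↔ Free S B ω := by
  constructor
  · intro hf
    refine ⟨hf.1, ?_⟩
    rw [LS_eq hω hf h.symm]
    exact hf.2
  · intro hf
    refine ⟨hf.1, ?_⟩
    rw [LS_eq hω' hf h]
    exact hf.2

end Vale.Agent.P155.SW905
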